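import Vale.Agent.N157.Ground

namespace Vale.Agent.Results.P157.A0Unbounded

open MeasureTheory ProbabilityTheory Vale.Agent.P157W88 Vale.Agent.P157.Par Vale.Agent.P157.Sph
  Vale.Agent.N157

/-- (1) As soon as `f(G)` and `exp f(G)` are integrable, the pressure converges in mean on the cube
and on the sphere and the limit is given by the variational formulas. (2) The ground state energy
on the sphere for bounded continuous `f`. -/
theorem result :
    (∀ f : ℝ → ℝ, Measurable f → Integrable f (gaussianReal 0 1) →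
      Integrable (fun x => Real.exp (f x)) (gaussianReal 0 1) → ∀ α : ℝ, 0 < α →
      (∃ L : ℝ, Limit cubeLaw α f L ∧ LimitL1 cubeLaw α f L ∧
        IsGLB {y | ∃ (k : ℕ) (m q : ℕ → ℝ), Exponents k m ∧ Path k q ∧ q k < 1 ∧
          IsLUB {y | ∃ r, Path k r ∧ y = parisi α f k m q r} y} L) ∧
      ∃ L : ℝ, Limit sphereLaw α f L ∧ LimitL1 sphereLaw α f L ∧
        IsGLB {y | ∃ (k : ℕ) (m q : ℕ → ℝ), Exponents k m ∧ Path k q ∧ q k < 1 ∧
          y = α * patternPart f k m q + csPart k m q} L) ∧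
    (∀ f : ℝ → ℝ, Continuous f → (∃ B, ∀ x, |f x| ≤ B) → ∀ α : ℝ, 0 < α →
      ∃ (L : ℝ → ℝ) (e : ℝ),
        (∀ β : ℝ, 0 < β →
          IsGLB {y | ∃ (k : ℕ) (m q : ℕ → ℝ), Exponents k m ∧ Path k q ∧ q k < 1 ∧
            y = α * patternPart (fun x => β * f x) k m q + csPart k m q} (L β)) ∧
        IsLUB {y | ∃ β, 0 < β ∧ y = L β / β} e ∧ SupLimit α f e) := by
  refine ⟨fun f h1 h2 h3 α hα => ⟨cube_formula ⟨h1, h2, h3⟩ hα, sphere_formula' ⟨h1, h2, h3⟩ hα⟩,
    ?_⟩
  · rintro f hf ⟨B, hB⟩ α hα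
    choose L h1 _ h2 using fun β : ℝ => sphere_formula' (cls_of_bdd (hf.measurable.const_mul β)
      (B := |β| * B) fun x => by
        rw [abs_mul]; exact mul_le_mul_of_nonneg_left (hB x) (abs_nonneg β)) hα
    obtain ⟨e, h3, h4⟩ := ground hf hB hα fun β _ => h1 β
    exact ⟨L, e, fun β _ => h2 β, h3, h4⟩

end Vale.Agent.Results.P157.A0Unbounded
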